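import Vale.Agent.P092.QT.H978.C2a
import Vale.Agent.P092.QT.H720.Dn
import Vale.Agent.P092.QT.H565.PosC
import Vale.Agent.P092.H565.Phi

/-!
P092 (helper978), project Q, block [Q-C2], part 2: assembly of Theorem C, pair version, from the two
operators `Θ₁`, `Θ₂` with their forms.
-/

set_option linter.all false

open MeasureTheory Filter Topology ContinuousLinearMap
open scoped InnerProductSpace ENNReal NNReal ZeroAtInfty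

namespace Vale.Agent.P092.QT.H978

open Vale.Agent.P092.H978

open Vale.Agent.P092.H160
open Vale.Agent.P092.QT.H156.Sm
open Vale.Agent.P092.QT.H650
open Vale.Agent.P092.QT.H715.Q
open Vale.Agent.P092.QT.H720 Vale.Agent.P092.H720
open Vale.Agent.P092.H242.ThC
open Vale.Agent.P092.PA (FacS)

section abs

variable {A₁ L₁ A₂ L₂ : Type*} [NonUnitalRing A₁] [StarRing A₁] [Module ℂ A₁]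
  [NormedAddCommGroup L₁] [InnerProductSpace ℂ L₁] [CompleteSpace L₁] {j₁ : A₁ →ₗ[ℂ] L₁}
  [NonUnitalRing A₂] [StarRing A₂] [Module ℂ A₂]
  [NormedAddCommGroup L₂] [InnerProductSpace ℂ L₂] [CompleteSpace L₂] {j₂ : A₂ →ₗ[ℂ] L₂}
variable {H Y₁ Y₂ : Type*} [Group H] [TopologicalSpace H] [IsTopologicalGroup H]
  [MeasurableSpace Y₁] [MeasurableSpace Y₂]
variable {α₁ : H → A₁ → A₁} {U₁ : H →* (L₁ →L[ℂ] L₁)} {r₁ : Y₁ → A₁ → A₁} {ν₁ : Measure Y₁}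
  {α₂ : H → A₂ → A₂} {U₂ : H →* (L₂ →L[ℂ] L₂)} {r₂ : Y₂ → A₂ → A₂} {ν₂ : Measure Y₂}

/-- covariance on a dense set is enough -/
theorem cov_all (h₁ : Act j₁ α₁ U₁) (h₂ : Act j₂ α₂ U₂) {Θ : A₁ → A₁ → (L₂ →L[ℂ] L₂)}
    (hΘ : ThF j₁ r₁ ν₁ Θ) {Γ : Type*} {κ : Γ → H} (hκ : DenseRange κ)
    (hc : ∀ g b c, U₂ (κ g) * Θ b c * U₂ (κ g)⁻¹ = Θ (α₁ (κ g) b) (α₁ (κ g) c)) (h : H) (b c : A₁) :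
    U₂ h * Θ b c * U₂ h⁻¹ = Θ (α₁ h b) (α₁ h c) := by
  refine ContinuousLinearMap.ext fun x => ext_inner_left ℂ fun z => ?_
  refine hκ.induction_on (p := fun h => ⟪z, (U₂ h * Θ b c * U₂ h⁻¹) x⟫_ℂ =
    ⟪z, Θ (α₁ h b) (α₁ h c) x⟫_ℂ) h (isClosed_eq ?_ ?_) fun g => ?_
  · have e : ∀ h, ⟪z, (U₂ h * Θ b c * U₂ h⁻¹) x⟫_ℂ = ⟪U₂ h⁻¹ z, Θ b c (U₂ h⁻¹ x)⟫_ℂ := fun h => by
      rw [h₂.inner_inv]; rfl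
    simp only [e]
    have h3 : ∀ ξ : L₂, Continuous fun h => U₂ h⁻¹ ξ := fun ξ => (h₂.cont ξ).comp continuous_inv
    exact (h3 z).inner ((Θ b c).continuous.comp (h3 x))
  · have h4 := hΘ.cont (h₁.contj b) (h₁.contj c)
    exact continuous_const.inner (h4.clm_apply continuous_const)
  · rw [hc]

/-- the exchange formula for products is enough -/
theorem exch_all' [StarModule ℂ A₂] [SMulCommClass ℂ A₂ A₂] [IsScalarTower ℂ A₂ A₂]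
    [MeasurableSpace H] [BorelSpace H] [SecondCountableTopology H] {μ : Measure H}
    (h2 : HA j₂) (hα : Act j₂ α₂ U₂)
    (hI : Itg j₂ α₂ μ) {Θ₁ : A₁ → A₁ → (L₂ →L[ℂ] L₂)} {Θ₂ : A₂ → A₂ → (L₁ →L[ℂ] L₁)}
    (hΘ₂ : ThF j₂ r₂ ν₂ Θ₂)
    (hS : ∀ (b c : A₁) (x y z : A₂), ⟪j₂ z, Θ₁ b c (j₂ (x * y))⟫_ℂ =
      ⟪j₁ c, Θ₂ (star z) (star (x * y)) (j₁ b)⟫_ℂ) (b c : A₁) (x z : A₂) :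
    ⟪j₂ z, Θ₁ b c (j₂ x)⟫_ℂ = ⟪j₁ c, Θ₂ (star z) (star x) (j₁ b)⟫_ℂ := by
  let F : A₂ →ₗ[ℂ] ℂ :=
    { toFun := fun x => ⟪j₁ c, Θ₂ (star z) (star x) (j₁ b)⟫_ℂ
      map_add' := fun x y => by
        rw [star_add, hΘ₂.add_right, add_apply, inner_add_right]
      map_smul' := fun k x => by
        rw [star_smul, hΘ₂.smul_right, star_star, smul_apply, inner_smul_right]
        rfl }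
  have hF : ∀ x, ‖F x‖ ≤ ‖j₁ c‖ * (‖j₂ z‖ * ‖j₁ b‖) * ‖j₂ x‖ := by
    intro x
    refine (norm_inner_le_norm _ _).trans ?_
    have h3 := (Θ₂ (star z) (star x)).le_of_opNorm_le (hΘ₂.bdd (star z) (star x)) (j₁ b)
    rw [h2.norm_star, h2.norm_star] at h3
    refine (mul_le_mul_of_nonneg_left h3 (norm_nonneg _)).trans (le_of_eq ?_)
    ring
  let ψ : L₂ →L[ℂ] ℂ := F.extendOfNorm j₂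
  have hψ : ∀ x, ψ (j₂ x) = F x := fun x => LinearMap.extendOfNorm_eq h2.dense ⟨_, hF⟩ x
  let φ : L₂ →L[ℂ] ℂ := (innerSL ℂ (j₂ z)).comp (Θ₁ b c)
  have hφ : ∀ ξ, φ ξ = ⟪j₂ z, Θ₁ b c ξ⟫_ℂ := fun ξ => rfl
  have h4 := ext2 h2 hα hI (φ := φ) (ψ := ψ) (fun x y => by rw [hφ, hψ, hS]; rfl) (j₂ x)
  rw [hφ, hψ] at h4
  exact h4

end abs

section asm

variable {Γ X Y₁ Y₂ K G₁ G₂ H : Type} [Group Γ] [Countable Γ] [Group X] [Countable X] [Group Y₁]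
    [Countable Y₁] [Group Y₂] [Countable Y₂]
    [NormedAddCommGroup K] [InnerProductSpace ℂ K] [CompleteSpace K]
    [Group G₁] [TopologicalSpace G₁] [IsTopologicalGroup G₁] [LocallyCompactSpace G₁]
    [SecondCountableTopology G₁] [T2Space G₁] [MeasurableSpace G₁] [BorelSpace G₁]
    [Group G₂] [TopologicalSpace G₂] [IsTopologicalGroup G₂] [LocallyCompactSpace G₂]
    [SecondCountableTopology G₂] [T2Space G₂] [MeasurableSpace G₂] [BorelSpace G₂]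
    [Group H] [TopologicalSpace H] [IsTopologicalGroup H] [LocallyCompactSpace H]
    [SecondCountableTopology H] [T2Space H] [MeasurableSpace H] [BorelSpace H]
    {V R₁ R₂ : Γ →* (K →L[ℂ] K)} {f₁ f₂ : X →* Γ} {ρ : X →* (K →L[ℂ] K)} {f₁' : Y₁ →* Γ}
    {ρ₁' : Y₁ →* (K →L[ℂ] K)} {f₂' : Y₂ →* Γ} {ρ₂' : Y₂ →* (K →L[ℂ] K)} {ω ω₁' ω₂' : K}
    {p₁ : Γ →* G₁} {p₂ : Γ →* G₂} {κ : Γ →* H}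
    {μ₁ : Measure G₁} [μ₁.IsHaarMeasure] [μ₁.IsMulRightInvariant]
    {μ₂ : Measure G₂} [μ₂.IsHaarMeasure] [μ₂.IsMulRightInvariant]
    {ν : Measure H} [ν.IsHaarMeasure] [ν.IsMulRightInvariant]

/-- the form of `Θ` over the first leg -/
def FrmTh (D₁ : Dbl V R₁ f₁ ρ f₁' ρ₁' ω ω₁') (D₂ : Dbl V R₂ f₂ ρ f₂' ρ₂' ω ω₂') (hκ : DenseRange κ)
    (Θ : TA D₁ hκ p₁ μ₁ ν → TA D₁ hκ p₁ μ₁ ν → (LL D₂ hκ p₂ μ₂ ν →L[ℂ] LL D₂ hκ p₂ μ₂ ν)) : Prop :=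
  ∀ (b c : TA D₁ hκ p₁ μ₁ ν) (z x : TA D₂ hκ p₂ μ₂ ν),
    ⟪jj D₂ hκ p₂ μ₂ ν z, Θ b c (jj D₂ hκ p₂ μ₂ ν x)⟫_ℂ =
      ip ω (μ₂.prod μ₁) (fun w => z.1 w.1 * c.1 w.2) (fun w => b.1 w.2 * x.1 w.1)

variable {D₁ : Dbl V R₁ f₁ ρ f₁' ρ₁' ω ω₁'} {D₂ : Dbl V R₂ f₂ ρ f₂' ρ₂' ω ω₂'} {hκ : DenseRange κ}

/-- covariance on `Γ`, from the form -/
theorem cov_form (hp₂ : DenseRange p₂)
    (h1 : F1 (p₁.comp f₁) κ ρ V ω μ₁) (h2 : F1 (p₂.comp f₂) κ ρ V ω μ₂)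
    {Θ : TA D₁ hκ p₁ μ₁ ν → TA D₁ hκ p₁ μ₁ ν → (LL D₂ hκ p₂ μ₂ ν →L[ℂ] LL D₂ hκ p₂ μ₂ ν)}
    (hf : FrmTh D₁ D₂ hκ Θ) {U₂ : H →* (LL D₂ hκ p₂ μ₂ ν →L[ℂ] LL D₂ hκ p₂ μ₂ ν)}
    (hU₂ : Act (jj D₂ hκ p₂ μ₂ ν) (aT D₂ hκ μ₂ ν) U₂) (g : Γ) (b c : TA D₁ hκ p₁ μ₁ ν) :
    U₂ (κ g) * Θ b c * U₂ (κ g)⁻¹ = Θ (aT D₁ hκ μ₁ ν (κ g) b) (aT D₁ hκ μ₁ ν (κ g) c) := by
  refine Vale.Agent.P092.QT.H100Q.ext_form D₂ hκ μ₂ ν fun z x => ?_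
  have e1 : ⟪jj D₂ hκ p₂ μ₂ ν z, (U₂ (κ g) * Θ b c * U₂ (κ g)⁻¹) (jj D₂ hκ p₂ μ₂ ν x)⟫_ℂ =
      ⟪U₂ (κ g)⁻¹ (jj D₂ hκ p₂ μ₂ ν z), Θ b c (U₂ (κ g)⁻¹ (jj D₂ hκ p₂ μ₂ ν x))⟫_ℂ := by
    rw [hU₂.inner_inv]; rfl
  rw [e1, hU₂.coe, hU₂.coe, hf, hf]
  set z' := aT D₂ hκ μ₂ ν (κ g)⁻¹ z with hz'
  set x' := aT D₂ hκ μ₂ ν (κ g)⁻¹ x with hx'
  have e2 := ip_conj (μ := μ₂.prod μ₁) D₁.fr (fdf_xb (ι₁ := p₁.comp f₁) (ι₂ := p₂.comp f₂)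
    c.2.smo.toFd z'.2.smo.toFd) (fdf_bx b.2.smo.toFd x'.2.smo.toFd)
    (l2f_xb h2 z'.2.smo c.2.smo.toFd c.2.smo.l2) (l2f_bx h1 b.2.smo x'.2.smo.toFd x'.2.smo.l2) g
  rw [← e2]
  have kb : ∀ u, (aT D₁ hκ μ₁ ν (κ g) b).1 u = V g * b.1 u * V g⁻¹ := fun u =>
    al_coe D₁.fr hκ b.2.smo.acont g u
  have kc : ∀ u, (aT D₁ hκ μ₁ ν (κ g) c).1 u = V g * c.1 u * V g⁻¹ := fun u =>
    al_coe D₁.fr hκ c.2.smo.acont g u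
  have kk : ∀ (y : TA D₂ hκ p₂ μ₂ ν) u, V g * (aT D₂ hκ μ₂ ν (κ g)⁻¹ y).1 u * V g⁻¹ = y.1 u := by
    intro y u
    have h3 : (aT D₂ hκ μ₂ ν (κ g)⁻¹ y).1 u = V g⁻¹ * y.1 u * V g := by
      have h4 := al_coe D₂.fr hκ y.2.smo.acont g⁻¹ u
      rw [map_inv] at h4
      refine h4.trans ?_
      change V g⁻¹ * y.1 u * V g⁻¹⁻¹ = _
      rw [inv_inv]
    rw [h3, ← mul_assoc, ← mul_assoc, D₁.fr.mul_inv, one_mul, mul_assoc, D₁.fr.mul_inv, mul_one]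
  have cj : ∀ S T : K →L[ℂ] K, V g * (S * T) * V g⁻¹ = (V g * S * V g⁻¹) * (V g * T * V g⁻¹) := by
    intro S T
    calc V g * (S * T) * V g⁻¹ = V g * S * 1 * (T * V g⁻¹) := by simp only [mul_one, mul_assoc]
      _ = V g * S * (V g⁻¹ * V g) * (T * V g⁻¹) := by rw [D₁.fr.inv_mul]
      _ = _ := by simp only [mul_assoc]
  unfold ip
  refine integral_congr_ae (Eventually.of_forall fun w => ?_)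
  simp only
  rw [cj, cj, kk, kk, kb, kc]

/-- the sup bound, from the form -/
theorem sup_form (hp₁ : DenseRange p₁) (h1 : F1 (p₁.comp f₁) κ ρ V ω μ₁)
    (h1' : F1 (κ.comp f₁') p₁ ρ₁' R₁ ω₁' ν)
    {Θ : TA D₁ hκ p₁ μ₁ ν → TA D₁ hκ p₁ μ₁ ν → (LL D₂ hκ p₂ μ₂ ν →L[ℂ] LL D₂ hκ p₂ μ₂ ν)}
    (hf : FrmTh D₁ D₂ hκ Θ) {c₁ : ℝ≥0} [(c₁ • ν).IsHaarMeasure]
    {U₁ : H →* (LL D₁ hκ p₁ μ₁ ν →L[ℂ] LL D₁ hκ p₁ μ₁ ν)}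
    {S₁ : G₁ →* (LL D₁ hκ p₁ μ₁ ν →L[ℂ] LL D₁ hκ p₁ μ₁ ν)}
    (P₁ : Pk (jj D₁ hκ p₁ μ₁ ν) (aT D₁ hκ μ₁ ν) U₁ (c₁ • ν) (rT D₁ hκ hp₁ μ₁ ν) S₁ μ₁)
    (faith : ∀ h : H, (∀ a, jj D₁ hκ p₁ μ₁ ν (aT D₁ hκ μ₁ ν h a) = jj D₁ hκ p₁ μ₁ ν a) → h = 1)
    (ξ : LL D₂ hκ p₂ μ₂ ν) (hξ : ξ ∈ Set.range (jj D₂ hκ p₂ μ₂ ν)) (n : ℕ)
    (b c : Fin n → TA D₁ hκ p₁ μ₁ ν) (C : ℝ)
    (hC : ∀ t, ‖∑ k, ⟪jj D₁ hκ p₁ μ₁ ν (c k), jj D₁ hκ p₁ μ₁ ν (aT D₁ hκ μ₁ ν t (b k))⟫_ℂ‖ ≤ C) :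
    ‖∑ k, ⟪ξ, Θ (b k) (c k) ξ⟫_ℂ‖ ≤ ‖ξ‖ ^ 2 * C := by
  obtain ⟨x, rfl⟩ := hξ
  have h3 := Vale.Agent.P092.QT.H565.sup_q' (μ' := μ₂) D₁ hκ hp₁ h1 h1' P₁ faith
    (x := x.1) x.2.smo.toFd x.2.smo.l2 b c hC
  have h4 : ‖jj D₂ hκ p₂ μ₂ ν x‖ ^ 2 = (nsq ω μ₂ x.1).toReal :=
    Vale.Agent.P092.QT.H156.Sm.norm_toLp_sq x.2.smo.l2
  rw [h4]
  refine le_trans (le_of_eq ?_) h3
  congr 1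
  refine Finset.sum_congr rfl fun k _ => ?_
  rw [hf, Vale.Agent.P092.QT.H100Q.q_swap]

/-- the exchange formula, from the forms -/
theorem exch_form (h1 : F1 (p₁.comp f₁) κ ρ V ω μ₁) (h2 : F1 (p₂.comp f₂) κ ρ V ω μ₂)
    {Θ₁ : TA D₁ hκ p₁ μ₁ ν → TA D₁ hκ p₁ μ₁ ν → (LL D₂ hκ p₂ μ₂ ν →L[ℂ] LL D₂ hκ p₂ μ₂ ν)}
    (hf₁ : FrmTh D₁ D₂ hκ Θ₁)
    {Θ₂ : TA D₂ hκ p₂ μ₂ ν → TA D₂ hκ p₂ μ₂ ν → (LL D₁ hκ p₁ μ₁ ν →L[ℂ] LL D₁ hκ p₁ μ₁ ν)}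
    (hf₂ : FrmTh D₂ D₁ hκ Θ₂) (b c : TA D₁ hκ p₁ μ₁ ν) (x y z : TA D₂ hκ p₂ μ₂ ν) :
    ⟪jj D₂ hκ p₂ μ₂ ν z, Θ₁ b c (jj D₂ hκ p₂ μ₂ ν (x * y))⟫_ℂ =
      ⟪jj D₁ hκ p₁ μ₁ ν c, Θ₂ (star z) (star (x * y)) (jj D₁ hκ p₁ μ₁ ν b)⟫_ℂ := by
  rw [hf₁, hf₂]
  exact rot D₁.fr h1 h2 b.2.smo c.2.smo z.2.smo x.2.smo y.2.smo

/-- **Theorem C, pair version, from the two operators** -/
theorem c2_of (hp₁ : DenseRange p₁) (hp₂ : DenseRange p₂) (hH : FacS H)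
    (h1 : F1 (p₁.comp f₁) κ ρ V ω μ₁) (h1' : F1 (κ.comp f₁') p₁ ρ₁' R₁ ω₁' ν)
    (h2 : F1 (p₂.comp f₂) κ ρ V ω μ₂) (h2' : F1 (κ.comp f₂') p₂ ρ₂' R₂ ω₂' ν)
    (hne₁ : ∃ a, TwS V f₁ ρ ω ω₁' p₁ κ μ₁ ν a ∧ a ≠ 0) (hne₂ : ∃ b, TwS V f₂ ρ ω ω₂' p₂ κ μ₂ ν b ∧ b ≠ 0)
    {Θ₁ : TA D₁ hκ p₁ μ₁ ν → TA D₁ hκ p₁ μ₁ ν → (LL D₂ hκ p₂ μ₂ ν →L[ℂ] LL D₂ hκ p₂ μ₂ ν)}
    (hΘ₁ : ThF (jj D₁ hκ p₁ μ₁ ν) (rT D₁ hκ hp₁ μ₁ ν) μ₁ Θ₁) (hf₁ : FrmTh D₁ D₂ hκ Θ₁)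
    {Θ₂ : TA D₂ hκ p₂ μ₂ ν → TA D₂ hκ p₂ μ₂ ν → (LL D₁ hκ p₁ μ₁ ν →L[ℂ] LL D₁ hκ p₁ μ₁ ν)}
    (hΘ₂ : ThF (jj D₂ hκ p₂ μ₂ ν) (rT D₂ hκ hp₂ μ₂ ν) μ₂ Θ₂) (hf₂ : FrmTh D₂ D₁ hκ Θ₂)
    {a : G₁ → K →L[ℂ] K} {b : G₂ → K →L[ℂ] K} (ha : TwS V f₁ ρ ω ω₁' p₁ κ μ₁ ν a)
    (hb : TwS V f₂ ρ ω ω₂' p₂ κ μ₂ ν b) (x : G₁) (y : G₂) : a x * b y = b y * a x := by
  haveI : μ₁.IsInvInvariant := Vale.Agent.P092.QT.H448.Gal.invInv_of_right μ₁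
  haveI : μ₂.IsInvInvariant := Vale.Agent.P092.QT.H448.Gal.invInv_of_right μ₂
  haveI : ν.IsInvInvariant := Vale.Agent.P092.QT.H448.Gal.invInv_of_right ν
  obtain ⟨c₁, U₁, S₁, hc₁, P₁⟩ := exists_pk D₁ hκ hp₁ μ₁ ν h1 h1'
  obtain ⟨c₂, U₂, S₂, hc₂, P₂⟩ := exists_pk D₂ hκ hp₂ μ₂ ν h2 h2'
  haveI : (c₁ • ν).IsHaarMeasure := Measure.IsHaarMeasure.nnreal_smul ν hc₁
  haveI : (c₂ • ν).IsHaarMeasure := Measure.IsHaarMeasure.nnreal_smul ν hc₂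
  obtain ⟨a₀, ha₀, ha₀'⟩ := hne₁
  obtain ⟨b₀, hb₀, hb₀'⟩ := hne₂
  -- the algebras are not zero
  have hj₁ : ∃ a, jj D₁ hκ p₁ μ₁ ν a ≠ 0 := by
    refine ⟨⟨a₀, ha₀⟩, fun h => nsq_ne_zero (μ := μ₁) D₁.fr.reg ha₀.smo.toFd ha₀' ?_⟩
    have h4 : ‖jj D₁ hκ p₁ μ₁ ν ⟨a₀, ha₀⟩‖ ^ 2 = (nsq ω μ₁ a₀).toReal :=
      Vale.Agent.P092.QT.H156.Sm.norm_toLp_sq ha₀.smo.l2
    rw [h, norm_zero, zero_pow two_ne_zero] at h4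
    exact ((ENNReal.toReal_eq_zero_iff _).1 h4.symm).resolve_right (nsq_lt_top ha₀.smo.l2).ne
  have hj₂ : ∃ a, jj D₂ hκ p₂ μ₂ ν a ≠ 0 := by
    refine ⟨⟨b₀, hb₀⟩, fun h => nsq_ne_zero (μ := μ₂) D₂.fr.reg hb₀.smo.toFd hb₀' ?_⟩
    have h4 : ‖jj D₂ hκ p₂ μ₂ ν ⟨b₀, hb₀⟩‖ ^ 2 = (nsq ω μ₂ b₀).toReal :=
      Vale.Agent.P092.QT.H156.Sm.norm_toLp_sq hb₀.smo.l2
    rw [h, norm_zero, zero_pow two_ne_zero] at h4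
    exact ((ENNReal.toReal_eq_zero_iff _).1 h4.symm).resolve_right (nsq_lt_top hb₀.smo.l2).ne
  have k₁ := faith_of hH P₁ hj₁
  have k₂ := faith_of hH P₂ hj₂
  have v₁ := Vale.Agent.P092.H565.coef_van P₁.ha P₁.actH P₁.itgH
  have v₂ := Vale.Agent.P092.H565.coef_van P₂.ha P₂.actH P₂.itgH
  have hS : ∀ (b c : TA D₁ hκ p₁ μ₁ ν) (x z : TA D₂ hκ p₂ μ₂ ν),
      ⟪jj D₂ hκ p₂ μ₂ ν z, Θ₁ b c (jj D₂ hκ p₂ μ₂ ν x)⟫_ℂ =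
        ⟪jj D₁ hκ p₁ μ₁ ν c, Θ₂ (star z) (star x) (jj D₁ hκ p₁ μ₁ ν b)⟫_ℂ :=
    exch_all' P₂.ha P₂.actH P₂.itgH hΘ₂ (exch_form h1 h2 hf₁ hf₂)
  have hne : ∃ b c, Θ₁ b c ≠ 0 := by
    by_contra hcon
    push Not at hcon
    refine form_ne (μ₁ := μ₁) (μ₂ := μ₂) D₁.fr h1 h2 ha₀.smo ha₀' hb₀.smo hb₀' fun v => ?_
    have h5 := hf₁ ⟨a₀, ha₀⟩ ⟨a₀, ha₀⟩ (star ⟨b₀, hb₀⟩ * ⟨b₀, hb₀⟩)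
      (rT D₂ hκ hp₂ μ₂ ν v ⟨b₀, hb₀⟩ * star (rT D₂ hκ hp₂ μ₂ ν v ⟨b₀, hb₀⟩))
    rw [hcon, zero_apply, inner_zero_right] at h5
    exact h5.symm
  have key := pair_theta P₁ P₂ v₁ v₂ (Vale.Agent.P092.H565.dense_ph P₁ v₁ hj₁ k₁)
    (Vale.Agent.P092.H565.dense_ph P₂ v₂ hj₂ k₂) hΘ₁ hΘ₂ P₁.ha.dense P₂.ha.dense
    (sup_form hp₁ h1 h1' hf₁ P₁ k₁) (sup_form hp₂ h2 h2' hf₂ P₂ k₂) hS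
    (cov_all P₁.actH P₂.actH hΘ₁ hκ (cov_form hp₂ h1 h2 hf₁ P₂.actH))
    (cov_all P₂.actH P₁.actH hΘ₂ hκ (cov_form hp₁ h2 h1 hf₂ P₁.actH))
    (fun S T _ _ hS hT hc => grp_pair hH hS hT hc) hne
  refine (comm_of_form (μ₁ := μ₁) (μ₂ := μ₂) D₁.fr h1 h2 ha.smo hb.smo ?_ y x).symm
  have h6 := hf₁ ⟨a, ha⟩ ⟨a, ha⟩ ⟨b, hb⟩ ⟨b, hb⟩
  rw [key, smul_apply, inner_smul_right, one_apply_eq_self, inner_jj, inner_jj] at h6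
  exact h6.symm

end asm

end Vale.Agent.P092.QT.H978
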